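import Vale.Agent.P207.H832.Uni

/-!
# P207 / H832: the gauge step on the frame bundle with an explicit order
-/

open scoped Manifold ContDiff ENNReal Topology
open Bundle MeasureTheory Set Filter Topology

noncomputable section

set_option maxSynthPendingDepth 3
set_option linter.unusedSectionVars false

namespace Vale.Agent.P207.H832

open Vale.Agent.P255 (RMetric coefIn Gam Riem innerAt)
open Vale.Agent.P207 Vale.Agent.P207.Q Vale.Agent.P207.H442
open Vale.Agent.P207.H476 (Dfo pull IsIso kS wS JC js_JC mem_JC hasDerivAt_kS kS_dfo_zero vecF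
  frW_vecF Eqv kS_apply wS_apply)
open Vale.Agent.P207.Kat (Dat GT1 GT2 IsK divf Lf)

variable {n : ℕ} {M : Type} [TopologicalSpace M] [ChartedSpace (EV n) M]
  [IsManifold 𝓘(ℝ, EV n) ∞ M]

variable [NeZero n] [CompactSpace M] [T2Space M] [MeasurableSpace M] [BorelSpace M]
variable {g : RMetric (EV n) M} (D : Dat g) [Nonempty (Fr g)]

/-- the Sobolev inequality of order `d` -/
def SobOrd (d : ℕ) : Prop :=
  ∃ K : ℝ, 0 < K ∧ ∀ (s : ℕ) (u : SmFr g), D.c s u ≤ K * D.h (s + d) u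

/-- `Dat.STEPStmt` with the order `r₀` as a parameter -/
def STEPr (r₀ : ℕ) : Prop :=
  ∀ r₁ r : ℕ, r₀ + r₁ ≤ r → ∃ K : ℝ, 0 < K ∧
    ∀ (g' : RMetric (EV n) M) (k : Fin n → Fin n → SmFr g), IsK g g' k → K * D.hT r k ≤ 1 →
      ∃ (ψ : Dfo n M) (k' : Fin n → Fin n → SmFr g), IsK g (pull g' ψ) k' ∧
        D.hT (8 * r) k' ≤ K * D.hT (8 * r) k ∧ D.hT 0 k' ≤ K * D.hT r k ∧
        D.hV r₁ (divf (frCalc g) k') ≤ K * D.hT r k ^ 2

theorem stepStmt_iff : D.STEPStmt ↔ ∃ r₀, STEPr D r₀ := Iff.rfl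

theorem STEPr.mono {r₀ r₀' : ℕ} (h : STEPr D r₀) (hr : r₀ ≤ r₀') : STEPr D r₀' :=
  fun r₁ r h1 => h r₁ r (by omega)

theorem sobD_of_sobOrd {d : ℕ} (hd : SobOrd D d) : SobD D.S d := by
  obtain ⟨K, hK, h⟩ := hd
  refine ⟨K * (1 + (Fintype.card (H955.Ix n) : ℝ)) ^ d, by positivity, fun u => ?_⟩
  have h1 : ‖(u : C(Fr g, ℝ))‖ ≤ K * (1 + (Fintype.card (H955.Ix n) : ℝ)) ^ d *
      (cal D.S D.loc).n d u := by
    have h2 := h 0 u
    rw [zero_add] at h2
    refine (show ‖(u : C(Fr g, ℝ))‖ ≤ K * D.h d u from h2).trans ?_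
    rw [mul_assoc]
    exact mul_le_mul_of_nonneg_left (hN_le_n D.S D.loc d u) hK.le
  have h3 : (cal D.S D.loc).n d u ^ 2 = BF (XS D.S) (intL D.S) d u u := (cal D.S D.loc).n_sq d u
  rw [← h3, ← mul_pow]
  have := norm_nonneg (u : C(Fr g, ℝ))
  gcongr

/-- **(STEP) from (GAUGE)**, explicit order -/
theorem stepr_of_gauge {d : ℕ} (hd : SobOrd D d) (hG : GaugeStmt D) : STEPr D (2 * d + 3) := by
  obtain ⟨Cg, hCg, hgauge⟩ := hG
  intro r₁ r hr
  obtain ⟨C, η, hC1, hη, hstep⟩ := newton_step_tensor_d D.S D.loc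
    (Sum.inl : Fin n → H955.Ix n) (sobD_of_sobOrd D hd) r₁
    (fun s => Cg s * cst n (s + 2)) (fun s => mul_nonneg (hCg s) (cst_nonneg _)) r (by omega)
  set c1 : ℝ := n * (1 + (Fintype.card (H955.Ix n) : ℝ)) ^ r₁ with hc1
  have hc1' : 0 ≤ c1 := by positivity
  have hc8 := cst_nonneg (n := n) (8 * r)
  have hc0 := cst_nonneg (n := n) 0
  have hC0 : 0 ≤ C := by linarith
  set K : ℝ := cst n (8 * r) * C + cst n 0 * C + c1 * C + 1 / η with hK
  have p1 : 0 ≤ cst n (8 * r) * C := by positivity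
  have p2 : 0 ≤ cst n 0 * C := by positivity
  have p3 : 0 ≤ c1 * C := by positivity
  have p4 : 0 < 1 / η := by positivity
  have hK0 : 0 < K := by rw [hK]; linarith
  refine ⟨K, hK0, fun g' k hk hsm => ?_⟩
  have hk0 := eq_kS hk
  obtain ⟨w, hw1, hw2, hw3⟩ := hgauge k (Kat.gt2_of_isK hk)
  -- the vector field
  have hEqv : Eqv (fun m (p : Fr g) => (w m : C(Fr g, ℝ)) p) := fun B f i => hw1 B f i
  have hSm : ∀ m, SmF (fun p : Fr g => (w m : C(Fr g, ℝ)) p) := fun m => (w m).2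
  set W : H476.VecF n M := vecF hEqv hSm with hW
  have hwS : wS g W = w := by
    funext m
    apply Subtype.ext
    ext p
    exact frW_vecF hEqv hSm m p
  -- the curve
  set kt : ℝ → Fin n → Fin n → SmFr g := fun t => kS g (pull g' (W.dfo t)) with hkt
  have hkt0 : kt 0 = k := by
    funext i j
    rw [hk0]
    exact kS_dfo_zero W g' i j
  have hmain := hstep w kt (fun t _ i j => by
      have := hasD_kS D W g' i j t
      rw [hwS] at this
      exact this) (fun s => by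
      rw [hkt0]
      refine (N_le_hV D (s + 3) w).trans ((hw3 s).trans ?_)
      rw [mul_assoc]
      exact mul_le_mul_of_nonneg_left (hT_le_N2 D (s + 2) k) (hCg s)) (fun j => by
      rw [hkt0]
      exact hw2 j) (by
      rw [hkt0]
      refine (N2_le_hT D r k).trans ?_
      have h1 : 1 / η * D.hT r k ≤ 1 := by
        refine le_trans ?_ hsm
        refine mul_le_mul_of_nonneg_right ?_ (D.hT_nonneg r k)
        rw [hK]; linarith
      rw [one_div, inv_mul_le_iff₀ hη] at h1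
      linarith)
  rw [hkt0] at hmain
  obtain ⟨m1, m2, m3⟩ := hmain
  have hr0 := D.hT_nonneg r k
  have hr8 := D.hT_nonneg (8 * r) k
  refine ⟨W.dfo 1, kt 1, isK_kS _, ?_, ?_, ?_⟩
  · calc D.hT (8 * r) (kt 1) ≤ cst n (8 * r) * N2 D.S D.loc (8 * r) (kt 1) := hT_le_N2 D _ _
      _ ≤ cst n (8 * r) * (C * N2 D.S D.loc (8 * r) k) := by gcongr
      _ ≤ cst n (8 * r) * (C * D.hT (8 * r) k) := by
        have := N2_le_hT D (8 * r) k
        gcongr
      _ = cst n (8 * r) * C * D.hT (8 * r) k := by ring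
      _ ≤ K * D.hT (8 * r) k := by
        refine mul_le_mul_of_nonneg_right ?_ hr8
        rw [hK]; linarith
  · calc D.hT 0 (kt 1) ≤ cst n 0 * N2 D.S D.loc 0 (kt 1) := hT_le_N2 D _ _
      _ ≤ cst n 0 * (C * N2 D.S D.loc r k) := by gcongr
      _ ≤ cst n 0 * (C * D.hT r k) := by
        have := N2_le_hT D r k
        gcongr
      _ = cst n 0 * C * D.hT r k := by ring
      _ ≤ K * D.hT r k := by
        refine mul_le_mul_of_nonneg_right ?_ hr0
        rw [hK]; linarith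
  · have hN0 := N2_nonneg D.S D.loc r k
    refine (hV_le_N D r₁ (divf (frCalc g) (kt 1))).trans ?_
    refine (mul_le_mul_of_nonneg_left m3 hc1').trans ?_
    have h7 := N2_le_hT D r k
    calc c1 * (C * N2 D.S D.loc r k ^ 2) ≤ c1 * (C * D.hT r k ^ 2) := by gcongr
      _ = c1 * C * D.hT r k ^ 2 := by ring
      _ ≤ K * D.hT r k ^ 2 := by
        refine mul_le_mul_of_nonneg_right ?_ (sq_nonneg _)
        rw [hK]; linarith

/-- **(STEP)** with the explicit order `2 d + 3`, `d` the Sobolev order -/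
theorem stepr [ConnectedSpace M] (hn : 2 ≤ n) (h : NegCurvature g) (hs : LocSymmetric g) {d : ℕ}
    (hd : SobOrd D d) : STEPr D (2 * d + 3) :=
  stepr_of_gauge D hd (gaugeStmt_of D (H734.gauge_stmt D hn h hs))

end Vale.Agent.P207.H832
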