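import Vale.Agent.P207.Kat.Fin
import Vale.Agent.P207.H832.Step2
import Vale.Agent.P207.H476.Cur
import Vale.Agent.P207.H476.Vec

/-!
# P207 / H832: the gauge step `Dat.STEPStmt` from the solution of the linear gauge equation
-/

open scoped Manifold ContDiff ENNReal Topology
open Bundle MeasureTheory Set Filter Topology

noncomputable section

set_option maxSynthPendingDepth 3
set_option linter.unusedSectionVars false

namespace Vale.Agent.P207.H832

open Vale.Agent.P255 (RMetric coefIn Gam Riem innerAt)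
open Vale.Agent.P207 Vale.Agent.P207.Q Vale.Agent.P207.H442
open Vale.Agent.P207.H476 (Dfo pull IsIso kS wS JC js_JC mem_JC hasDerivAt_kS kS_dfo_zero vecF
  frW_vecF Eqv kS_apply wS_apply)
open Vale.Agent.P207.Kat (Dat GT1 GT2 IsK divf Lf)

variable {n : ℕ} {M : Type} [TopologicalSpace M] [ChartedSpace (EV n) M]
  [IsManifold 𝓘(ℝ, EV n) ∞ M]

variable [NeZero n] [CompactSpace M] [T2Space M] [MeasurableSpace M] [BorelSpace M]
variable {g : RMetric (EV n) M} (D : Dat g) [Nonempty (Fr g)]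

/-- **(GAUGE)** the linear gauge equation `div (k + L_w g) = 0`, with estimates -/
def GaugeStmt : Prop :=
  ∃ Cg : ℕ → ℝ, (∀ s, 0 ≤ Cg s) ∧ ∀ k : Fin n → Fin n → SmFr g, GT2 k →
    ∃ w : Fin n → SmFr g, GT1 w ∧
      (∀ j, divf (frCalc g) (fun i j => k i j + Lf (frCalc g) w i j) j = 0) ∧
      ∀ s, D.hV (s + 3) w ≤ Cg s * D.hT (s + 2) k

section Norms

/-- the constant comparing the norms of order `s` -/
def cst (n : ℕ) (s : ℕ) : ℝ := (n : ℝ) ^ 2 * (1 + (Fintype.card (H955.Ix n) : ℝ)) ^ s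

theorem cst_nonneg (s : ℕ) : 0 ≤ cst n s := by unfold cst; positivity

theorem N2_le_hT (s : ℕ) (k : Fin n → Fin n → SmFr g) : N2 D.S D.loc s k ≤ D.hT s k := by
  refine (N2_le_sum D.S D.loc s k).trans ?_
  exact Finset.sum_le_sum fun i _ => Finset.sum_le_sum fun j _ => n_le_hN D.S D.loc s (k i j)

theorem hT_le_N2 (s : ℕ) (k : Fin n → Fin n → SmFr g) :
    D.hT s k ≤ cst n s * N2 D.S D.loc s k := by
  have h1 : ∀ i j, D.h s (k i j) ≤
      (1 + (Fintype.card (H955.Ix n) : ℝ)) ^ s * N2 D.S D.loc s k := by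
    intro i j
    refine (hN_le_n D.S D.loc s (k i j)).trans ?_
    exact mul_le_mul_of_nonneg_left (n_le_N2 D.S D.loc s k i j) (by positivity)
  calc D.hT s k ≤ ∑ _i : Fin n, ∑ _j : Fin n,
        (1 + (Fintype.card (H955.Ix n) : ℝ)) ^ s * N2 D.S D.loc s k :=
        Finset.sum_le_sum fun i _ => Finset.sum_le_sum fun j _ => h1 i j
    _ = cst n s * N2 D.S D.loc s k := by
        simp only [Finset.sum_const, Finset.card_univ, Fintype.card_fin, nsmul_eq_mul]
        unfold cst
        ring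

theorem N_le_hV (s : ℕ) (w : Fin n → SmFr g) : (cal D.S D.loc).N s w ≤ D.hV s w := by
  refine ((cal D.S D.loc).N_le_sum s w).trans ?_
  exact Finset.sum_le_sum fun i _ => n_le_hN D.S D.loc s (w i)

theorem hV_le_N (s : ℕ) (w : Fin n → SmFr g) :
    D.hV s w ≤ n * (1 + (Fintype.card (H955.Ix n) : ℝ)) ^ s * (cal D.S D.loc).N s w := by
  have h1 : ∀ i, D.h s (w i) ≤
      (1 + (Fintype.card (H955.Ix n) : ℝ)) ^ s * (cal D.S D.loc).N s w := by
    intro i
    refine (hN_le_n D.S D.loc s (w i)).trans ?_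
    exact mul_le_mul_of_nonneg_left ((cal D.S D.loc).n_le_N s w i) (by positivity)
  calc D.hV s w ≤ ∑ _i : Fin n,
        (1 + (Fintype.card (H955.Ix n) : ℝ)) ^ s * (cal D.S D.loc).N s w :=
        Finset.sum_le_sum fun i _ => h1 i
    _ = n * (1 + (Fintype.card (H955.Ix n) : ℝ)) ^ s * (cal D.S D.loc).N s w := by
        simp only [Finset.sum_const, Finset.card_univ, Fintype.card_fin, nsmul_eq_mul]
        ring

end Norms

/-- the components of `ψ_t^* g' - g` form a differentiable curve -/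
theorem hasD_kS (W : H476.VecF n M) (g' : RMetric (EV n) M) (i j : Fin n) (t : ℝ) :
    (cal D.S D.loc).HasD (fun t => kS g (pull g' (W.dfo t)) i j)
      (lieT D.S Sum.inl (wS g W) (kS g (pull g' (W.dfo t))) i j
        + lie D.S Sum.inl (wS g W) i j) t := by
  have hjs : JS D.S (JC g) := js_JC D.hP D.hφ D.hmp
  obtain ⟨F', hF', hd⟩ := hjs.dt _ (mem_JC (g₀ := g) W g' i j)
  have h1 := hjs.hasD D.loc (mem_JC (g₀ := g) W g' i j) hF' hd t
  have h2 : F' t = lieT D.S Sum.inl (wS g W) (kS g (pull g' (W.dfo t))) i j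
        + lie D.S Sum.inl (wS g W) i j := by
    apply Subtype.ext
    ext p
    have h3 := (hd t p).unique (hasDerivAt_kS (g₀ := g) W g' i j t p)
    rw [h3]
    congr 2
    have e1 : ∀ (i j : Fin n), ∑ m, Hd g i (wS g W m) *
        ((if m = j then 1 else 0) + kS g (pull g' (W.dfo t)) m j)
        = Hd g i (wS g W j) + ∑ m, Hd g i (wS g W m) * kS g (pull g' (W.dfo t)) m j := by
      intro i j
      simp only [mul_add, Finset.sum_add_distrib, mul_ite, mul_one, mul_zero,
        Finset.sum_ite_eq', Finset.mem_univ, if_true]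
    have e2 : ∀ (i j : Fin n), ∑ m, Hd g j (wS g W m) *
        ((if i = m then 1 else 0) + kS g (pull g' (W.dfo t)) i m)
        = Hd g j (wS g W i) + ∑ m, Hd g j (wS g W m) * kS g (pull g' (W.dfo t)) i m := by
      intro i j
      simp only [mul_add, Finset.sum_add_distrib, mul_ite, mul_one, mul_zero,
        Finset.sum_ite_eq, Finset.mem_univ, if_true]
    rw [e1, e2]
    change _ = (∑ m, wS g W m * Hd g m (kS g (pull g' (W.dfo t)) i j)
      + ∑ m, Hd g i (wS g W m) * kS g (pull g' (W.dfo t)) m j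
      + ∑ m, Hd g j (wS g W m) * kS g (pull g' (W.dfo t)) i m)
      + (Hd g i (wS g W j) + Hd g j (wS g W i))
    abel
  rw [h2] at h1
  exact h1

/-- the tensor `g' - g` is determined by its values -/
theorem eq_kS {g' : RMetric (EV n) M} {k : Fin n → Fin n → SmFr g} (hk : IsK g g' k) :
    k = kS g g' := by
  funext i j
  apply ext_ev
  intro p
  rw [hk p i j]
  exact (kS_apply g' i j p).symm

theorem isK_kS (g' : RMetric (EV n) M) : IsK g g' (kS g g') := fun p i j => kS_apply g' i j p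

/-- **(STEP) from (GAUGE)** -/
theorem stepStmt_of_gauge (hG : GaugeStmt D) : D.STEPStmt := by
  obtain ⟨Cg, hCg, hgauge⟩ := hG
  refine ⟨2 * (cal D.S D.loc).D + 3, fun r₁ r hr => ?_⟩
  obtain ⟨C, η, hC1, hη, hstep⟩ := newton_step_tensor2 D.S D.loc (Sum.inl : Fin n → H955.Ix n) r₁
    (fun s => Cg s * cst n (s + 2)) (fun s => mul_nonneg (hCg s) (cst_nonneg _)) r (by omega)
  set c1 : ℝ := n * (1 + (Fintype.card (H955.Ix n) : ℝ)) ^ r₁ with hc1
  have hc1' : 0 ≤ c1 := by positivity
  have hc8 := cst_nonneg (n := n) (8 * r)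
  have hc0 := cst_nonneg (n := n) 0
  have hC0 : 0 ≤ C := by linarith
  set K : ℝ := cst n (8 * r) * C + cst n 0 * C + c1 * C + 1 / η with hK
  have p1 : 0 ≤ cst n (8 * r) * C := by positivity
  have p2 : 0 ≤ cst n 0 * C := by positivity
  have p3 : 0 ≤ c1 * C := by positivity
  have p4 : 0 < 1 / η := by positivity
  have hK0 : 0 < K := by rw [hK]; linarith
  refine ⟨K, hK0, fun g' k hk hsm => ?_⟩
  have hk0 := eq_kS hk
  obtain ⟨w, hw1, hw2, hw3⟩ := hgauge k (Kat.gt2_of_isK hk)
  -- the vector field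
  have hEqv : Eqv (fun m (p : Fr g) => (w m : C(Fr g, ℝ)) p) := fun B f i => hw1 B f i
  have hSm : ∀ m, SmF (fun p : Fr g => (w m : C(Fr g, ℝ)) p) := fun m => (w m).2
  set W : H476.VecF n M := vecF hEqv hSm with hW
  have hwS : wS g W = w := by
    funext m
    apply Subtype.ext
    ext p
    exact frW_vecF hEqv hSm m p
  -- the curve
  set kt : ℝ → Fin n → Fin n → SmFr g := fun t => kS g (pull g' (W.dfo t)) with hkt
  have hkt0 : kt 0 = k := by
    funext i j
    rw [hk0]
    exact kS_dfo_zero W g' i j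
  have hmain := hstep w kt (fun t _ i j => by
      have := hasD_kS D W g' i j t
      rw [hwS] at this
      exact this) (fun s => by
      rw [hkt0]
      refine (N_le_hV D (s + 3) w).trans ((hw3 s).trans ?_)
      rw [mul_assoc]
      exact mul_le_mul_of_nonneg_left (hT_le_N2 D (s + 2) k) (hCg s)) (fun j => by
      rw [hkt0]
      exact hw2 j) (by
      rw [hkt0]
      refine (N2_le_hT D r k).trans ?_
      have h1 : 1 / η * D.hT r k ≤ 1 := by
        refine le_trans ?_ hsm
        refine mul_le_mul_of_nonneg_right ?_ (D.hT_nonneg r k)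
        rw [hK]; linarith
      rw [one_div, inv_mul_le_iff₀ hη] at h1
      linarith)
  rw [hkt0] at hmain
  obtain ⟨m1, m2, m3⟩ := hmain
  have hr0 := D.hT_nonneg r k
  have hr8 := D.hT_nonneg (8 * r) k
  refine ⟨W.dfo 1, kt 1, isK_kS _, ?_, ?_, ?_⟩
  · calc D.hT (8 * r) (kt 1) ≤ cst n (8 * r) * N2 D.S D.loc (8 * r) (kt 1) := hT_le_N2 D _ _
      _ ≤ cst n (8 * r) * (C * N2 D.S D.loc (8 * r) k) := by gcongr
      _ ≤ cst n (8 * r) * (C * D.hT (8 * r) k) := by
        have := N2_le_hT D (8 * r) k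
        gcongr
      _ = cst n (8 * r) * C * D.hT (8 * r) k := by ring
      _ ≤ K * D.hT (8 * r) k := by
        refine mul_le_mul_of_nonneg_right ?_ hr8
        rw [hK]; linarith
  · calc D.hT 0 (kt 1) ≤ cst n 0 * N2 D.S D.loc 0 (kt 1) := hT_le_N2 D _ _
      _ ≤ cst n 0 * (C * N2 D.S D.loc r k) := by gcongr
      _ ≤ cst n 0 * (C * D.hT r k) := by
        have := N2_le_hT D r k
        gcongr
      _ = cst n 0 * C * D.hT r k := by ring
      _ ≤ K * D.hT r k := by
        refine mul_le_mul_of_nonneg_right ?_ hr0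
        rw [hK]; linarith
  · have hN0 := N2_nonneg D.S D.loc r k
    refine (hV_le_N D r₁ (divf (frCalc g) (kt 1))).trans ?_
    refine (mul_le_mul_of_nonneg_left m3 hc1').trans ?_
    have h7 := N2_le_hT D r k
    calc c1 * (C * N2 D.S D.loc r k ^ 2) ≤ c1 * (C * D.hT r k ^ 2) := by gcongr
      _ = c1 * C * D.hT r k ^ 2 := by ring
      _ ≤ K * D.hT r k ^ 2 := by
        refine mul_le_mul_of_nonneg_right ?_ (sq_nonneg _)
        rw [hK]; linarith

end Vale.Agent.P207.H832
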