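import Vale.Agent.P207.H832.StepFin
import Vale.Agent.P207.H734.GaugeS

/-!
# P207 / H832: `Dat.STEPStmt` without hypotheses
-/

open scoped Manifold ContDiff ENNReal Topology
open Bundle MeasureTheory Set Filter Topology

noncomputable section

set_option maxSynthPendingDepth 3
set_option linter.unusedSectionVars false

namespace Vale.Agent.P207.H832

open Vale.Agent.P255 (RMetric)
open Vale.Agent.P207 Vale.Agent.P207.Q Vale.Agent.P207.H442
open Vale.Agent.P207.Kat (Dat)

variable {n : ℕ} {M : Type} [TopologicalSpace M] [ChartedSpace (EV n) M]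
  [IsManifold 𝓘(ℝ, EV n) ∞ M]

variable [NeZero n] [CompactSpace M] [T2Space M] [MeasurableSpace M] [BorelSpace M]
variable {g : RMetric (EV n) M}

/-- **(STEP)** for closed locally symmetric manifolds of negative curvature -/
theorem stepStmt (D : Dat g) [ConnectedSpace M] [Nonempty (Fr g)] (hn : 2 ≤ n)
    (h : NegCurvature g) (hs : LocSymmetric g) : D.STEPStmt :=
  stepStmt_of_gauge D (gaugeStmt_of D (H734.gauge_stmt D hn h hs))

end Vale.Agent.P207.H832
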