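import Vale.Agent.P207.H832.StepFr
import Vale.Agent.P207.H734.GaugeF

/-!
# P207 / H832: the gauge step for locally symmetric metrics of negative curvature
-/

open scoped Manifold ContDiff ENNReal Topology
open Bundle MeasureTheory Set Filter Topology

noncomputable section

set_option maxSynthPendingDepth 3
set_option linter.unusedSectionVars false

namespace Vale.Agent.P207.H832

open Vale.Agent.P255 (RMetric coefIn Gam Riem innerAt)
open Vale.Agent.P207 Vale.Agent.P207.Q Vale.Agent.P207.H442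
open Vale.Agent.P207.Kat (Dat GT1 GT2 IsK divf Lf)
open Vale.Agent.P207.H734 (Ein Solv0 Solv1)

variable {n : ℕ} {M : Type} [TopologicalSpace M] [ChartedSpace (EV n) M]
  [IsManifold 𝓘(ℝ, EV n) ∞ M]

variable [NeZero n] [CompactSpace M] [T2Space M] [MeasurableSpace M] [BorelSpace M]
variable {g : RMetric (EV n) M} (D : Dat g) [Nonempty (Fr g)]

/-- the gauge field with the estimates for all orders at least two -/
theorem gaugeStmt_of (h : ∃ Cg : ℕ → ℝ, (∀ s, 0 ≤ Cg s) ∧ ∀ k : Fin n → Fin n → SmFr g, GT2 k →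
      ∃ w : Fin n → SmFr g, GT1 w ∧ (∀ s, 2 ≤ s → D.hV (s + 1) w ≤ Cg s * D.hT s k) ∧
        ∀ j, divf (frCalc g) (fun i j => k i j + Lf (frCalc g) w i j) j = 0) : GaugeStmt D := by
  obtain ⟨Cg, hC, h⟩ := h
  refine ⟨fun s => Cg (s + 2), fun s => hC _, fun k hk => ?_⟩
  obtain ⟨w, h1, h2, h3⟩ := h k hk
  exact ⟨w, h1, h3, fun s => h2 (s + 2) (by omega)⟩

/-- **(STEP)** from the resolvents of the Casimir operator on functions and vector fields -/
theorem stepStmt_of_solv [ConnectedSpace M] (hn : 2 ≤ n) (h : NegCurvature g)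
    (hs : LocSymmetric g)
    (hs0 : ∀ c₀ : ℝ, 0 < c₀ → Solv0 (frCalc g) D.h c₀)
    (hs1 : ∀ c₀ : ℝ, 0 < c₀ → Ein (frCalc g) c₀ → Solv1 (frCalc g) D.h (2 * c₀)) :
    D.STEPStmt :=
  stepStmt_of_gauge D (gaugeStmt_of D (H734.exists_gauge_fr D hn h hs hs0 hs1))

end Vale.Agent.P207.H832
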